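import Mathlib.Algebra.Order.Archimedean.Real.Hom
import Mathlib.Algebra.Order.Floor.Semifield
import Mathlib.Algebra.Order.Quantale
import Mathlib.Analysis.Fourier.LpSpace
import Mathlib.Analysis.Normed.Group.Tannery
import Mathlib.Analysis.PSeries
import Mathlib.Analysis.Real.Pi.Bounds
import Mathlib.Data.Int.Star
import Mathlib.LinearAlgebra.Complex.FiniteDimensional
import Mathlib.MeasureTheory.Function.Floor
import Mathlib.MeasureTheory.Function.LpSpace.InfiniteSum
import Mathlib.MeasureTheory.Function.SpecialFunctions.Inner
import Mathlib.MeasureTheory.Measure.Hausdorff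
import Mathlib.MeasureTheory.Measure.RegularityCompacts
import Mathlib.Order.CompletePartialOrder
import Mathlib.RingTheory.PicardGroup
import Mathlib.Tactic
import Mathlib.Topology.Algebra.ProperAction.Basic
import Mathlib.Topology.UniformSpace.Uniformizable

/-! The part of Mathlib that the development of this folder uses. -/
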