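import Vale.Agent.P076.MathlibUsed

open MeasureTheory Complex Filter Topology

namespace Vale.Agent.P076

/-- The critical exponent `s_n = n / (2 (n + 1))`. -/
noncomputable def critExp (n : ℕ) : ℝ := n / (2 * (n + 1))

/-- The Euclidean norm of `ξ ∈ ℝⁿ`. -/
noncomputable def nrm {n : ℕ} (ξ : Fin n → ℝ) : ℝ := √(∑ i, ξ i ^ 2)

/-- `f ∈ L²(ℝⁿ)` and `g = f̂`, the Plancherel Fourier transform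
`f̂(ξ) = ∫ e^{-i x·ξ} f(x) dx`, i.e. the `L²`-limit of the integrals over `[-R, R]ⁿ`. -/
def IsFourierPair {n : ℕ} (f g : (Fin n → ℝ) → ℂ) : Prop :=
  MemLp f 2 ∧ MemLp g 2 ∧
    Tendsto (fun R : ℝ => eLpNorm (fun ξ => g ξ -
      ∫ x in {x | ∀ i, |x i| ≤ R}, cexp (-(I * ∑ i, x i * ξ i)) * f x) 2) atTop (𝓝 0)

/-- The Gaussian-regularised evolution
`(2π)⁻ⁿ ∫ e^{i x·ξ - i t |ξ|² - a |ξ|²} g(ξ) dξ`, where `g = f̂`. -/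
noncomputable def evolve {n : ℕ} (g : (Fin n → ℝ) → ℂ) (t a : ℝ) (x : Fin n → ℝ) : ℂ :=
  ((2 * Real.pi) ^ n)⁻¹ *
    ∫ ξ : Fin n → ℝ, cexp (I * (∑ i, x i * ξ i) - I * t * nrm ξ ^ 2 - a * nrm ξ ^ 2) * g ξ

/-- `‖P_j f‖₂` -/
noncomputable def shellL2 {n : ℕ} (g : (Fin n → ℝ) → ℂ) (j : ℕ) : ℝ :=
  √(((2 * Real.pi) ^ n)⁻¹ * ∫ ξ in {ξ | 2 ^ j ≤ nrm ξ ∧ nrm ξ < 2 ^ (j + 1)}, ‖g ξ‖ ^ 2)

/-- blow-up -/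
def BlowUp {n : ℕ} (g : (Fin n → ℝ) → ℂ) : Prop :=
  ∃ u : ℝ → (Fin n → ℝ) → ℂ,
    (∀ t > 0, ∀ x, Tendsto (fun a => evolve g t a x) (𝓝[>] 0) (𝓝 (u t x))) ∧
      ∀ᵐ x, ∀ M : ℝ, ∃ᶠ t in 𝓝[>] (0 : ℝ), M < ‖u t x‖

end Vale.Agent.P076
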